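import Vale.Agent.P092.H398.SUc.Hd
import Vale.Agent.P092.H100.SU.Defs

/-! # Track H: the cells of a `Shape` (helper100's pointwise record) -/

namespace Vale.Agent.P092.H398.SU

open Matrix Vale.Agent.P092.H283.Gn Vale.Agent.P092.H100.SU

variable {n : ℕ} {Y Z : Type*} [TopologicalSpace Y] [CompactSpace Y] [TopologicalSpace Z]
  [CompactSpace Z]

set_option linter.unusedSectionVars false in
/-- **the cells of the hermitian quadrangle** -/
theorem cells_shape {X : C(Y, Matrix (Fin n) (Fin n) ℂ)} {P : C(Z, Matrix (Fin n) (Fin n) ℂ)}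
    {D : Matrix (Fin n) (Fin n) ℂ} {c : ℂ} (h : Shape X P D c) :
    ∃ v : Y → Fin n → ℂ, (∀ x, star (v x) ⬝ᵥ v x = 1) ∧ (∀ x, star (v x) ⬝ᵥ (D *ᵥ v x) = 0) ∧
      (∀ x, X x = vecMulVec (v x) (star (v x))) ∧ CellsG X P (Bh v P D) (Kh v D) := by
  choose v hv using h.pt
  exact ⟨v, fun x => (hv x).1, fun x => (hv x).2.1, fun x => (hv x).2.2,
    cellsG h.herm h.sq (fun x => (hv x).1) (fun x => (hv x).2.1) (fun x => (hv x).2.2) h.ln⟩

end Vale.Agent.P092.H398.SU
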