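import Vale.Agent.P092.H878.CCa

/-! # Carnot cells for a hermitian form, part 1: vector estimates (port of H878/CCa) -/

set_option linter.unusedSectionVars false
set_option linter.unusedVariables false

namespace Vale.Agent.P092.H398.SU

open scoped InnerProductSpace ComplexConjugate
open Finset Vale.Agent.P092.H878.CC

variable {V : Type*} [NormedAddCommGroup V] [InnerProductSpace ℂ V]

/-- a hermitian form of norm at most one -/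
structure Her (ω : V →ₗ⋆[ℂ] V →ₗ[ℂ] ℂ) : Prop where
  bd : ∀ a b, ‖ω a b‖ ≤ ‖a‖ * ‖b‖
  her : ∀ a b, ω b a = conj (ω a b)

/-- the orthogonal projection on a totally isotropic plane -/
structure Ph (ω : V →ₗ⋆[ℂ] V →ₗ[ℂ] ℂ) (P : V →ₗ[ℂ] V) : Prop where
  bas : ∃ a b : V, ‖a‖ = 1 ∧ ‖b‖ = 1 ∧ ⟪a, b⟫_ℂ = 0 ∧ ∀ y, P y = ⟪a, y⟫_ℂ • a + ⟪b, y⟫_ℂ • b
  iso : ∀ y y', ω (P y) (P y') = 0

variable {ω : V →ₗ⋆[ℂ] V →ₗ[ℂ] ℂ} {P : V →ₗ[ℂ] V}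

lemma Ph.pl (h : Ph ω P) : Pl (0 : V →ₗ[ℂ] V →ₗ[ℂ] ℂ) P := ⟨h.bas, fun _ _ => rfl⟩

lemma Ph.bs (h : Ph ω P) : ∃ a b : V, Bs P a b := h.pl.bs

lemma Ph.le (h : Ph ω P) (y : V) : ‖P y‖ ≤ ‖y‖ := h.pl.le y

lemma Ph.sub_le (h : Ph ω P) (y : V) : ‖y - P y‖ ≤ ‖y‖ := h.pl.sub_le y

/-- contact coordinate at a near point -/
lemma bb_le (hω : Her ω) (hP : Ph ω P) {v v' : V} (hv : ‖v‖ = 1) (hv' : ‖v'‖ = 1) (hPv : P v = v) :
    ‖ω (P v') v'‖ ≤ ‖ω v v'‖ + ‖rm v v'‖ ^ 2 := by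
  set e := rm v v' with he
  set c := ⟪v, v'⟫_ℂ with hc
  have h0 : v' = c • v + e := eq_rm v v'
  have h1 : P v' = c • v + P e := by rw [h0, map_add, map_smul, hPv]
  have hvv : ω v v = 0 := by
    have := hP.iso v v
    rwa [hPv] at this
  have h2 : ω v v' = ω v e := by
    rw [h0, map_add, map_smul, hvv, smul_zero, zero_add]
  have h3 : ω (P e) v = 0 := by
    have := hP.iso e v
    rwa [hPv] at this
  have h4 : ω (P v') v' = conj c * ω v v' + ω (P e) e := by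
    rw [h2, h1]
    conv_lhs => rw [h0]
    simp only [map_add, map_smul, LinearMap.map_smulₛₗ, LinearMap.add_apply, LinearMap.smul_apply,
      smul_eq_mul, hvv, h3]
    ring
  rw [h4]
  refine (norm_add_le _ _).trans (add_le_add ?_ ?_)
  · rw [norm_mul, RCLike.norm_conj]
    exact mul_le_of_le_one_left (norm_nonneg _) (inner_le_one hv hv')
  · calc ‖ω (P e) e‖ ≤ ‖P e‖ * ‖e‖ := hω.bd _ _
      _ ≤ ‖e‖ * ‖e‖ := mul_le_mul_of_nonneg_right (hP.le e) (norm_nonneg _)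
      _ = ‖e‖ ^ 2 := (sq _).symm

/-- the contact coordinate of the cell with centre `w` -/
noncomputable def gh (ω : V →ₗ⋆[ℂ] V →ₗ[ℂ] ℂ) (w v : V) : ℂ := ω w v * ⟪v, w⟫_ℂ

/-- the real part of the contact coordinate has order two -/
lemma gh_re (hω : Her ω) {w v : V} (hw0 : ω w w = 0) (hv0 : ω v v = 0) :
    conj (gh ω w v) = - gh ω w v - ω (rm w v) (rm w v) := by
  set e := rm w v with he
  set c := ⟪w, v⟫_ℂ with hc
  have h0 : v = c • w + e := eq_rm w v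
  have hcc : ⟪v, w⟫_ℂ = conj c := (inner_conj_symm v w).symm
  have h1 : ω w v = ω w e := by rw [h0, map_add, map_smul, hw0, smul_zero, zero_add]
  have h2 : conj c * ω w e + c * conj (ω w e) + ω e e = 0 := by
    rw [← hv0]
    conv_rhs => rw [h0]
    simp only [map_add, map_smul, LinearMap.map_smulₛₗ, LinearMap.add_apply, LinearMap.smul_apply,
      smul_eq_mul, hw0, hω.her w e]
    ring
  unfold gh
  rw [hcc, h1, map_mul, Complex.conj_conj]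
  linear_combination h2

lemma gh_id (hω : Her ω) {w v v' : V} (hw : ‖w‖ = 1) (hv : ‖v‖ = 1) (hv' : ‖v'‖ = 1)
    (hw0 : ω w w = 0) (hv0 : ω v v = 0) :
    ⟪w, v⟫_ℂ * ⟪v', w⟫_ℂ * ω v v' = (gh ω w v' - gh ω w v) - (‖rm w v‖ ^ 2 : ℝ) * gh ω w v' +
      (‖rm w v'‖ ^ 2 : ℝ) * gh ω w v - (1 - (‖rm w v'‖ ^ 2 : ℝ)) * ω (rm w v) (rm w v) +
      ⟪w, v⟫_ℂ * ⟪v', w⟫_ℂ * ω (rm w v) (rm w v') := by
  have hre := gh_re hω hw0 hv0
  set e := rm w v with he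
  set e' := rm w v' with he'
  set c := ⟪w, v⟫_ℂ with hc
  set c' := ⟪w, v'⟫_ℂ with hc'
  have h0 : v = c • w + e := eq_rm w v
  have h0' : v' = c' • w + e' := eq_rm w v'
  have hcc : ⟪v, w⟫_ℂ = conj c := (inner_conj_symm v w).symm
  have hcc' : ⟪v', w⟫_ℂ = conj c' := (inner_conj_symm v' w).symm
  have h1 : ω w v = ω w e := by rw [h0, map_add, map_smul, hw0, smul_zero, zero_add]
  have h1' : ω w v' = ω w e' := by rw [h0', map_add, map_smul, hw0, smul_zero, zero_add]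
  have h2 : ω v v' = conj c * ω w e' + c' * conj (ω w e) + ω e e' := by
    conv_lhs => rw [h0, h0']
    simp only [map_add, map_smul, LinearMap.map_smulₛₗ, LinearMap.add_apply, LinearMap.smul_apply,
      smul_eq_mul, hw0, hω.her w e]
    ring
  have h3 : conj c * c = ((1 - ‖e‖ ^ 2 : ℝ) : ℂ) := by
    rw [mul_comm, Complex.mul_conj, Complex.normSq_eq_norm_sq]
    have := rm_sq hw hv
    rw [← hc, ← he] at this
    congr 1
    linarith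
  have h3' : conj c' * c' = ((1 - ‖e'‖ ^ 2 : ℝ) : ℂ) := by
    rw [mul_comm, Complex.mul_conj, Complex.normSq_eq_norm_sq]
    have := rm_sq hw hv'
    rw [← hc', ← he'] at this
    congr 1
    linarith
  have hre' : c * conj (ω w e) = - (conj c * ω w e) - ω e e := by
    have h5 := hre
    unfold gh at h5
    rw [hcc, h1, map_mul, Complex.conj_conj] at h5
    linear_combination h5
  unfold gh
  rw [h2, hcc, hcc', h1, h1']
  have e1 : c * conj c' * (conj c * ω w e' + c' * conj (ω w e) + ω e e') =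
      (conj c * c) * (ω w e' * conj c') + (conj c' * c') * (c * conj (ω w e)) +
      c * conj c' * ω e e' := by ring
  rw [e1, h3, h3', hre']
  push_cast
  ring

lemma gh_le (hω : Her ω) {w v : V} (hw : ‖w‖ = 1) (hv : ‖v‖ = 1) : ‖gh ω w v‖ ≤ 1 := by
  unfold gh
  rw [norm_mul]
  have h1 := hω.bd w v
  rw [hw, hv, one_mul] at h1
  exact mul_le_one₀ h1 (norm_nonneg _) (inner_le_one hv hw)

/-- the norm of the second order terms -/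
lemma gh_err (hω : Her ω) {w v v' : V} (hw : ‖w‖ = 1) (hv : ‖v‖ = 1) (hv' : ‖v'‖ = 1)
    {d : ℝ} (h : ‖rm w v‖ ≤ d) (h' : ‖rm w v'‖ ≤ d) :
    ‖- (((‖rm w v‖ ^ 2 : ℝ) : ℂ) * gh ω w v') + ((‖rm w v'‖ ^ 2 : ℝ) : ℂ) * gh ω w v -
      (1 - ((‖rm w v'‖ ^ 2 : ℝ) : ℂ)) * ω (rm w v) (rm w v) +
      ⟪w, v⟫_ℂ * ⟪v', w⟫_ℂ * ω (rm w v) (rm w v')‖ ≤ 4 * d ^ 2 := by
  have hd0 : 0 ≤ d := (norm_nonneg _).trans h
  have g1 := gh_le hω hw hv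
  have g2 := gh_le hω hw hv'
  have s1 : ‖rm w v‖ ^ 2 ≤ d ^ 2 := pow_le_pow_left₀ (norm_nonneg _) h 2
  have s2 : ‖rm w v'‖ ^ 2 ≤ d ^ 2 := pow_le_pow_left₀ (norm_nonneg _) h' 2
  have t1 : ‖((‖rm w v‖ ^ 2 : ℝ) : ℂ) * gh ω w v'‖ ≤ d ^ 2 := by
    rw [norm_mul, Complex.norm_real, Real.norm_eq_abs, abs_of_nonneg (sq_nonneg _)]
    calc ‖rm w v‖ ^ 2 * ‖gh ω w v'‖ ≤ d ^ 2 * 1 := mul_le_mul s1 g2 (norm_nonneg _) (sq_nonneg _)
      _ = d ^ 2 := mul_one _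
  have t2 : ‖((‖rm w v'‖ ^ 2 : ℝ) : ℂ) * gh ω w v‖ ≤ d ^ 2 := by
    rw [norm_mul, Complex.norm_real, Real.norm_eq_abs, abs_of_nonneg (sq_nonneg _)]
    calc ‖rm w v'‖ ^ 2 * ‖gh ω w v‖ ≤ d ^ 2 * 1 := mul_le_mul s2 g1 (norm_nonneg _) (sq_nonneg _)
      _ = d ^ 2 := mul_one _
  have t3 : ‖⟪w, v⟫_ℂ * ⟪v', w⟫_ℂ * ω (rm w v) (rm w v')‖ ≤ d ^ 2 := by
    rw [norm_mul, norm_mul]
    have a1 := inner_le_one hw hv
    have a2 := inner_le_one hv' hw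
    have a3 : ‖ω (rm w v) (rm w v')‖ ≤ d * d :=
      (hω.bd _ _).trans (mul_le_mul h h' (norm_nonneg _) hd0)
    calc ‖⟪w, v⟫_ℂ‖ * ‖⟪v', w⟫_ℂ‖ * ‖ω (rm w v) (rm w v')‖ ≤ 1 * (d * d) :=
          mul_le_mul (mul_le_one₀ a1 (norm_nonneg _) a2) a3 (norm_nonneg _) zero_le_one
      _ = d ^ 2 := by ring
  have t4 : ‖(1 - ((‖rm w v'‖ ^ 2 : ℝ) : ℂ)) * ω (rm w v) (rm w v)‖ ≤ d ^ 2 := by
    have a3 : ‖ω (rm w v) (rm w v)‖ ≤ d * d :=
      (hω.bd _ _).trans (mul_le_mul h h (norm_nonneg _) hd0)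
    have a4 : ‖(1 - ((‖rm w v'‖ ^ 2 : ℝ) : ℂ))‖ ≤ 1 := by
      have e1 : (1 - ((‖rm w v'‖ ^ 2 : ℝ) : ℂ)) = ((1 - ‖rm w v'‖ ^ 2 : ℝ) : ℂ) := by push_cast; ring
      rw [e1, Complex.norm_real, Real.norm_eq_abs, abs_le]
      have := rm_sq hw hv'
      constructor <;> nlinarith [sq_nonneg ‖⟪w, v'⟫_ℂ‖, sq_nonneg ‖rm w v'‖]
    rw [norm_mul]
    calc _ ≤ 1 * (d * d) := mul_le_mul a4 a3 (norm_nonneg _) zero_le_one
      _ = d ^ 2 := by ring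
  calc _ ≤ d ^ 2 + d ^ 2 + d ^ 2 + d ^ 2 := by
        refine (norm_add_le _ _).trans (add_le_add ((norm_sub_le _ _).trans (add_le_add
          ((norm_add_le _ _).trans (add_le_add ?_ t2)) t4)) t3)
        rw [norm_neg]
        exact t1
    _ = 4 * d ^ 2 := by ring

/-- in one cell: the value of the form is controlled by the contact coordinate -/
lemma om_le (hω : Her ω) {w v v' : V} (hw : ‖w‖ = 1) (hv : ‖v‖ = 1) (hv' : ‖v'‖ = 1)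
    (hw0 : ω w w = 0) (hv0 : ω v v = 0) {d : ℝ}
    (hd : d ≤ 1 / 2) (h : ‖rm w v‖ ≤ d) (h' : ‖rm w v'‖ ≤ d) :
    ‖ω v v'‖ ≤ 4 * (‖gh ω w v - gh ω w v'‖ + 4 * d ^ 2) := by
  have hid := gh_id hω hw hv hv' hw0 hv0
  have herr := gh_err hω hw hv hv' h h'
  have c1 : 1 / 2 ≤ ‖⟪w, v⟫_ℂ‖ := by
    have h1 := rm_sq hw hv
    have h2 : ‖rm w v‖ ^ 2 ≤ 1 / 4 := by nlinarith [norm_nonneg (rm w v)]
    nlinarith [norm_nonneg (⟪w, v⟫_ℂ), sq_nonneg (‖⟪w, v⟫_ℂ‖ - 1 / 2)]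
  have c2 : 1 / 2 ≤ ‖⟪v', w⟫_ℂ‖ := by
    have h1 := rm_sq hw hv'
    rw [norm_inner_symm] at h1
    have h2 : ‖rm w v'‖ ^ 2 ≤ 1 / 4 := by nlinarith [norm_nonneg (rm w v')]
    nlinarith [norm_nonneg (⟪v', w⟫_ℂ), sq_nonneg (‖⟪v', w⟫_ℂ‖ - 1 / 2)]
  have n1 : ‖⟪w, v⟫_ℂ * ⟪v', w⟫_ℂ * ω v v'‖ ≤ ‖gh ω w v - gh ω w v'‖ + 4 * d ^ 2 := by
    have e1 : ⟪w, v⟫_ℂ * ⟪v', w⟫_ℂ * ω v v' = (gh ω w v' - gh ω w v) +
        (- (((‖rm w v‖ ^ 2 : ℝ) : ℂ) * gh ω w v') + ((‖rm w v'‖ ^ 2 : ℝ) : ℂ) * gh ω w v -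
      (1 - ((‖rm w v'‖ ^ 2 : ℝ) : ℂ)) * ω (rm w v) (rm w v) +
      ⟪w, v⟫_ℂ * ⟪v', w⟫_ℂ * ω (rm w v) (rm w v')) := by
      rw [hid]; ring
    rw [e1]
    refine (norm_add_le _ _).trans (add_le_add (le_of_eq (norm_sub_rev _ _)) herr)
  rw [norm_mul, norm_mul] at n1
  have : 1 / 4 * ‖ω v v'‖ ≤ ‖⟪w, v⟫_ℂ‖ * ‖⟪v', w⟫_ℂ‖ * ‖ω v v'‖ := by
    apply mul_le_mul_of_nonneg_right _ (norm_nonneg _)
    nlinarith
  linarith

/-- converse: the contact coordinate is controlled by the form -/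
lemma gh_sub_le (hω : Her ω) {w v v' : V} (hw : ‖w‖ = 1) (hv : ‖v‖ = 1) (hv' : ‖v'‖ = 1)
    (hw0 : ω w w = 0) (hv0 : ω v v = 0) {d : ℝ}
    (h : ‖rm w v‖ ≤ d) (h' : ‖rm w v'‖ ≤ d) :
    ‖gh ω w v - gh ω w v'‖ ≤ ‖ω v v'‖ + 4 * d ^ 2 := by
  have hid := gh_id hω hw hv hv' hw0 hv0
  have herr := gh_err hω hw hv hv' h h'
  have a1 := inner_le_one hw hv
  have a2 := inner_le_one hv' hw
  have t4 : ‖⟪w, v⟫_ℂ * ⟪v', w⟫_ℂ * ω v v'‖ ≤ ‖ω v v'‖ := by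
    rw [norm_mul, norm_mul]
    exact mul_le_of_le_one_left (norm_nonneg _) (mul_le_one₀ a1 (norm_nonneg _) a2)
  have e1 : gh ω w v' - gh ω w v = ⟪w, v⟫_ℂ * ⟪v', w⟫_ℂ * ω v v' -
      (- (((‖rm w v‖ ^ 2 : ℝ) : ℂ) * gh ω w v') + ((‖rm w v'‖ ^ 2 : ℝ) : ℂ) * gh ω w v -
      (1 - ((‖rm w v'‖ ^ 2 : ℝ) : ℂ)) * ω (rm w v) (rm w v) +
      ⟪w, v⟫_ℂ * ⟪v', w⟫_ℂ * ω (rm w v) (rm w v')) := by
    rw [hid]; ring
  rw [norm_sub_rev, e1]
  exact (norm_sub_le _ _).trans (add_le_add t4 herr)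

/-- two points of one cell near one plane -/
lemma om_le_pl (hω : Her ω) (hP : Ph ω P) {v v' : V} (hv : ‖v‖ = 1) (hv' : ‖v'‖ = 1) {a b d : ℝ}
    (h1 : ‖v - P v‖ ≤ a) (h1' : ‖v' - P v'‖ ≤ a) (h2 : ‖ω (P v) v‖ ≤ b) (h2' : ‖ω (P v') v'‖ ≤ b)
    (h3 : ‖rm v v'‖ ≤ d) : ‖ω v v'‖ ≤ 2 * b + 2 * a * d + a ^ 2 := by
  have ha0 : 0 ≤ a := (norm_nonneg _).trans h1
  have hd0 : 0 ≤ d := (norm_nonneg _).trans h3
  set c := ⟪v, v'⟫_ℂ with hc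
  set e := rm v v' with he
  set c' := ⟪v', v⟫_ℂ with hc'
  set e' := rm v' v with he'
  have h0 : v' = c • v + e := eq_rm v v'
  have h0' : v = c' • v' + e' := eq_rm v' v
  have hc1 : ‖c‖ ≤ 1 := inner_le_one hv hv'
  have hc1' : ‖c'‖ ≤ 1 := inner_le_one hv' hv
  have he1 : ‖e'‖ ≤ d := by rw [he', ← rm_symm hv hv']; exact h3
  have dec : ω v v' = ω (v - P v) (P v') + ω (P v) (v' - P v') + ω (v - P v) (v' - P v') := by
    have hi := hP.iso v v'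
    simp only [map_sub, LinearMap.sub_apply, hi]
    ring
  have t1 : ‖ω (v - P v) (P v')‖ ≤ b + a * d := by
    have e1 : ω (v - P v) (P v') = c * ω (v - P v) (P v) + ω (v - P v) (P e) := by
      conv_lhs => rw [h0]
      simp only [map_add, map_smul, smul_eq_mul]
    have e2 : ω (v - P v) (P v) = conj (ω (P v) v) := by
      rw [map_sub, LinearMap.sub_apply, hP.iso, sub_zero, hω.her]
    rw [e1, e2]
    refine (norm_add_le _ _).trans (add_le_add ?_ ?_)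
    · rw [norm_mul, RCLike.norm_conj]
      exact (mul_le_of_le_one_left (norm_nonneg _) hc1).trans h2
    · exact (hω.bd _ _).trans (mul_le_mul h1 ((hP.le e).trans h3) (norm_nonneg _) ha0)
  have t2 : ‖ω (P v) (v' - P v')‖ ≤ b + a * d := by
    have e1 : ω (P v) (v' - P v') = conj c' * ω (P v') (v' - P v') + ω (P e') (v' - P v') := by
      conv_lhs => rw [h0']
      simp only [map_add, map_smul, LinearMap.map_smulₛₗ, LinearMap.add_apply, LinearMap.smul_apply,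
        smul_eq_mul]
    have e2 : ω (P v') (v' - P v') = ω (P v') v' := by
      rw [map_sub, hP.iso, sub_zero]
    rw [e1, e2]
    refine (norm_add_le _ _).trans (add_le_add ?_ ?_)
    · rw [norm_mul, RCLike.norm_conj]
      exact (mul_le_of_le_one_left (norm_nonneg _) hc1').trans h2'
    · calc ‖ω (P e') (v' - P v')‖ ≤ ‖P e'‖ * ‖v' - P v'‖ := hω.bd _ _
        _ ≤ d * a := mul_le_mul ((hP.le e').trans he1) h1' (norm_nonneg _) hd0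
        _ = a * d := mul_comm _ _
  have t3 : ‖ω (v - P v) (v' - P v')‖ ≤ a ^ 2 := by
    calc ‖ω (v - P v) (v' - P v')‖ ≤ ‖v - P v‖ * ‖v' - P v'‖ := hω.bd _ _
      _ ≤ a * a := mul_le_mul h1 h1' (norm_nonneg _) ha0
      _ = a ^ 2 := (sq _).symm
  rw [dec]
  calc _ ≤ (b + a * d) + (b + a * d) + a ^ 2 :=
        (norm_add_le _ _).trans (add_le_add ((norm_add_le _ _).trans (add_le_add t1 t2)) t3)
    _ = _ := by ring

end Vale.Agent.P092.H398.SU
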