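import Vale.Agent.P092.H398.SUc.Hc
import Vale.Agent.P092.H283.Gn.D
import Vale.Agent.P092.H878.CCe

/-! # Carnot cells for a hermitian form, part 4: the statement in matrix letters
(port of H878/CCe) -/

set_option linter.unusedSectionVars false
set_option linter.unusedVariables false

namespace Vale.Agent.P092.H398.SU

open scoped InnerProductSpace ComplexConjugate Matrix
open Finset Matrix Vale.Agent.P092.H283.Gn
open Vale.Agent.P092.H878.CC (VV Kp cp pc cp_sub abs_cp_le norm_le_cp coord_le tv tv_apply tv_inner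
  tv_norm norm_sq_eq lm lm_apply vmv_mulVec)

variable {n : ℕ}

/-- the hermitian form of a matrix -/
noncomputable def fh (J : Matrix (Fin n) (Fin n) ℂ) : VV n →ₗ⋆[ℂ] VV n →ₗ[ℂ] ℂ :=
  LinearMap.mk₂'ₛₗ (starRingEnd ℂ) (RingHom.id ℂ)
    (fun a b => star (WithLp.ofLp a) ⬝ᵥ (J *ᵥ (WithLp.ofLp b)))
    (by intro a a' b; rw [WithLp.ofLp_add, star_add, add_dotProduct])
    (by intro c a b; rw [WithLp.ofLp_smul, star_smul, smul_dotProduct]; rfl)
    (by intro a b b'; rw [WithLp.ofLp_add, mulVec_add, dotProduct_add])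
    (by intro c a b; rw [WithLp.ofLp_smul, mulVec_smul, dotProduct_smul]; rfl)

lemma fh_apply (J : Matrix (Fin n) (Fin n) ℂ) (a b : VV n) :
    fh J a b = star (WithLp.ofLp a) ⬝ᵥ (J *ᵥ (WithLp.ofLp b)) := rfl

lemma fh_her {J : Matrix (Fin n) (Fin n) ℂ} (hJ : Jᴴ = J) (hJ1 : J * J = 1) : Her (fh J) where
  bd := by
    intro a b
    have h1 : fh J a b = ⟪a, tv (J *ᵥ (WithLp.ofLp b))⟫_ℂ := by
      have := tv_inner (WithLp.ofLp a) (J *ᵥ (WithLp.ofLp b))
      rw [fh_apply, ← this]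
      rfl
    have h3 : ‖tv (J *ᵥ (WithLp.ofLp b))‖ = ‖b‖ := by
      have e1 := norm_sq_eq (tv (J *ᵥ (WithLp.ofLp b)))
      have e2 := norm_sq_eq b
      have e3 : ((‖tv (J *ᵥ (WithLp.ofLp b))‖ ^ 2 : ℝ) : ℂ) = ((‖b‖ ^ 2 : ℝ) : ℂ) := by
        rw [e1, e2]
        change star (J *ᵥ (WithLp.ofLp b)) ⬝ᵥ (J *ᵥ (WithLp.ofLp b)) = _
        rw [star_mulVec, ← dotProduct_mulVec, mulVec_mulVec, hJ, hJ1, one_mulVec]
      have e4 : ‖tv (J *ᵥ (WithLp.ofLp b))‖ ^ 2 = ‖b‖ ^ 2 := by exact_mod_cast e3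
      exact (sq_eq_sq₀ (norm_nonneg _) (norm_nonneg _)).mp e4
    rw [h1]
    refine (norm_inner_le_norm _ _).trans ?_
    rw [h3]
  her := by
    intro a b
    have h : fh J b a = star (fh J a b) := by
      rw [fh_apply, fh_apply, star_dotProduct, star_mulVec, hJ, dotProduct_mulVec, dotProduct_comm]
    exact h

lemma ph_of {J M : Matrix (Fin n) (Fin n) ℂ} (hω : Her (fh J)) {a b : Fin n → ℂ}
    (ha : star a ⬝ᵥ a = 1) (hb : star b ⬝ᵥ b = 1) (hab : star a ⬝ᵥ b = 0)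
    (hJa : star a ⬝ᵥ (J *ᵥ a) = 0) (hJb : star b ⬝ᵥ (J *ᵥ b) = 0)
    (hJ : star a ⬝ᵥ (J *ᵥ b) = 0) (hM : M = vecMulVec a (star a) + vecMulVec b (star b)) :
    Ph (fh J) (lm M) := by
  have fm : ∀ y : VV n, lm M y = ⟪tv a, y⟫_ℂ • tv a + ⟪tv b, y⟫_ℂ • tv b := by
    intro y
    have h1 : ⟪tv a, y⟫_ℂ = star a ⬝ᵥ (WithLp.ofLp y) := tv_inner a (WithLp.ofLp y)
    have h2 : ⟪tv b, y⟫_ℂ = star b ⬝ᵥ (WithLp.ofLp y) := tv_inner b (WithLp.ofLp y)
    rw [lm_apply, hM, add_mulVec, vmv_mulVec, vmv_mulVec, h1, h2]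
    rfl
  refine ⟨⟨tv a, tv b, tv_norm ha, tv_norm hb, by rw [tv_inner, hab], fm⟩, ?_⟩
  intro y y'
  have h0 : fh J (tv a) (tv b) = 0 := hJ
  have haa : fh J (tv a) (tv a) = 0 := hJa
  have hbb : fh J (tv b) (tv b) = 0 := hJb
  have h0' : fh J (tv b) (tv a) = 0 := by rw [hω.her (tv a) (tv b), h0, map_zero]
  rw [fm y, fm y']
  simp only [map_add, map_smul, LinearMap.map_smulₛₗ, LinearMap.add_apply, LinearMap.smul_apply,
    smul_eq_mul, haa, hbb, h0, h0', mul_zero, add_zero]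

variable {X Z : Type*} [TopologicalSpace X] [TopologicalSpace Z]

/-- **The cells** for unit isotropic vectors and totally isotropic planes of a hermitian form. -/
theorem cellsG {v : X → Fin n → ℂ} {Q : C(X, Matrix (Fin n) (Fin n) ℂ)}
    {P : C(Z, Matrix (Fin n) (Fin n) ℂ)} {J : Matrix (Fin n) (Fin n) ℂ} (hJ : Jᴴ = J)
    (hJ1 : J * J = 1) (hv : ∀ x, star (v x) ⬝ᵥ v x = 1) (hi : ∀ x, star (v x) ⬝ᵥ (J *ᵥ v x) = 0)
    (hQ : ∀ x, Q x = vecMulVec (v x) (star (v x)))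
    (hP : ∀ z, ∃ a b : Fin n → ℂ, star a ⬝ᵥ a = 1 ∧ star b ⬝ᵥ b = 1 ∧ star a ⬝ᵥ b = 0 ∧
      star a ⬝ᵥ (J *ᵥ a) = 0 ∧ star b ⬝ᵥ (J *ᵥ b) = 0 ∧ star a ⬝ᵥ (J *ᵥ b) = 0 ∧
      P z = vecMulVec a (star a) + vecMulVec b (star b)) :
    CellsG Q P (Bh v P J) (Kh v J) := by
  classical
  rcases isEmpty_or_nonempty X with hX | hX
  · refine ⟨1, one_pos, 0, fun N _ => ⟨⟨Empty, ∅, Empty.elim, Empty.elim, Empty.elim, ?_, ?_, ?_, ?_, ?_,
      ?_, ?_, ?_, ?_, ?_, ?_⟩⟩⟩
    · exact fun α => α.elim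
    · exact fun x => hX.elim x
    · exact fun α => α.elim
    · exact fun α => α.elim
    · exact fun α => α.elim
    · exact fun α => α.elim
    · exact fun α => α.elim
    · exact fun α => α.elim
    · exact fun α => α.elim
    · intro z t ht _
      have : t = ∅ := Finset.subset_empty.mp ht
      rw [this]
      simp only [Finset.card_empty, Nat.cast_zero]
      positivity
    · exact fun z α => α.elim
  have hω := fh_her hJ hJ1
  let G : Dat (fh J) X Z :=
    { v := fun x => tv (v x)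
      hv := fun x => tv_norm (hv x)
      hi := fun x => hi x
      hc := by
        intro i j
        have : (fun x => tv (v x) i * conj (tv (v x) j)) = fun x => Q x i j := by
          funext x
          rw [hQ x, vecMulVec_apply]
          rfl
        rw [this]
        exact Q.continuous.matrix_elem i j
      P := fun z => lm (P z)
      hP := by
        intro z
        obtain ⟨a, b, h1, h2, h3, h4, h5, h6, h7⟩ := hP z
        exact ph_of hω h1 h2 h3 h4 h5 h6 h7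
      hPc := by
        intro y
        have h1 : Continuous fun z => P z *ᵥ (WithLp.ofLp y) :=
          P.continuous.matrix_mulVec continuous_const
        exact (PiLp.continuous_toLp 2 _).comp h1 }
  have hD := Dat.DD_pos (n := n)
  have hB := Dat.BB_pos (n := n)
  have hK := Dat.KK_pos (n := n)
  have hLL : 0 < Dat.LL n := by
    unfold Dat.LL
    have : 0 < (4 * Dat.DD n + 5) ^ 2 + 648 * Dat.DD n ^ 2 := by positivity
    exact mul_pos this hK
  set C : ℝ := 4 * Dat.DD n + 4 * Dat.BB n + 4 + (16 + 16 * Dat.DD n ^ 2) + 162 * Dat.KK n + Dat.LL n with hC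
  have hDsq : 0 ≤ 16 * Dat.DD n ^ 2 := by positivity
  refine ⟨C, by positivity, ⌈8 * Dat.DD n⌉₊, fun N hN => ?_⟩
  have hN8 : 8 * Dat.DD n ≤ N := (Nat.le_ceil _).trans (by exact_mod_cast hN)
  have hN2 : 2 * Dat.DD n ≤ N := by linarith
  have hN' : (0 : ℝ) < N := by linarith
  have hN0 : 0 < N := by exact_mod_cast hN'
  have hdiff : ∀ x y : X, ∀ i j : Fin n, ∀ l : Fin 2,
      pc (G.v x) (i, j, l) - pc (G.v y) (i, j, l) = cp (Q x i j - Q y i j) l := by
    intro x y i j l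
    rw [← cp_sub, hQ x, hQ y, vecMulVec_apply, vecMulVec_apply]
    rfl
  refine ⟨⟨Dat.Ix n, G.s N, G.φ N, G.xa N, G.ψ hω N, G.φ_nonneg N, G.sum_φ hω N, G.ψ_nonneg hω N,
    G.ψ_le hω N, ?_, ?_, ?_, ?_, ?_, ?_, ?_⟩⟩
  · intro t ht x hx z hz hinc
    apply G.kill hω hN2 ht hx (z := z) hz
    change lm (P z) (tv (v x)) = tv (v x)
    rw [lm_apply]
    congr 1
    change P z *ᵥ v x = v x
    have h1 : Q x *ᵥ v x = v x := by rw [hQ, vmv_mulVec, hv, one_smul]
    conv_lhs => rw [← h1]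
    rw [mulVec_mulVec, hinc, h1]
  · intro t _ z hz i j
    have h1 := G.ψ_nn hω hN0 hz
    have h2 : ‖((1 - P z) * Q (G.xa N t)) i j‖ ≤ G.nn (G.xa N t) z := by
      have h3 : (0 : ℝ) ≤ G.nn (G.xa N t) z := norm_nonneg _
      have h4 : ((1 - P z) * Q (G.xa N t)) i j =
          (G.v (G.xa N t) - G.P z (G.v (G.xa N t))) i * star (v (G.xa N t) j) := by
        rw [hQ, mul_vecMulVec, vecMulVec_apply, sub_mulVec, one_mulVec]
        rfl
      rw [h4, norm_mul]
      have h5 : ‖star (v (G.xa N t) j)‖ ≤ 1 := by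
        rw [norm_star]
        exact (coord_le (G.v (G.xa N t)) j).trans (G.hv _).le
      calc _ ≤ G.nn (G.xa N t) z * 1 :=
            mul_le_mul (coord_le (G.v (G.xa N t) - G.P z (G.v (G.xa N t))) i) h5 (norm_nonneg _) h3
        _ = G.nn (G.xa N t) z := mul_one _
    refine (h2.trans h1).trans ?_
    apply div_le_div_of_nonneg_right _ hN'.le
    rw [hC]; linarith
  · intro t _ z hz
    have h1 := G.ψ_bb hω hN0 hz
    refine (show ‖star (P z *ᵥ v (G.xa N t)) ⬝ᵥ (J *ᵥ v (G.xa N t))‖ ≤ 4 * Dat.BB n / N ^ 2 from h1).trans ?_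
    apply div_le_div_of_nonneg_right _ (by positivity)
    rw [hC]; linarith
  · intro t ht x hx i j
    have I1 := G.in_of hx
    have I2 := G.xa_in ht
    have h1 : ‖Q x i j - Q (G.xa N t) i j‖ ≤ 2 * (2 / N) := by
      apply norm_le_cp
      intro l
      rw [← hdiff]
      exact G.near_c hN0 I2.c I1.c (i, j, l)
    refine h1.trans ?_
    rw [show 2 * (2 / (N : ℝ)) = 4 / N by ring]
    apply div_le_div_of_nonneg_right _ hN'.le
    rw [hC]; linarith
  · intro t ht x hx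
    have h1 := G.om_near hω hN2 ht (G.in_of hx) (G.xa_in ht)
    refine (show ‖star (v x) ⬝ᵥ (J *ᵥ v (G.xa N t))‖ ≤ (16 + 16 * Dat.DD n ^ 2) / N ^ 2 from h1).trans ?_
    apply div_le_div_of_nonneg_right _ (by positivity)
    rw [hC]; linarith
  · intro z t ht hψ
    have h1 := G.count hω hN8 z t (fun β hβ => ⟨ht hβ, hψ β hβ⟩)
    refine h1.trans ?_
    apply mul_le_mul_of_nonneg_right _ (by positivity)
    rw [hC]; linarith
  · intro z α hα hψ δ hδ _ t ht hcl
    have h1 := G.count_loc hω hN8 z hα hψ hδ t (fun β hβ => ⟨ht hβ, (hcl β hβ).1, fun i => by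
      obtain ⟨i, j, l⟩ := i
      rw [hdiff]
      exact (abs_cp_le _ _).trans ((hcl β hβ).2 i j)⟩)
    refine h1.trans ?_
    apply mul_le_mul_of_nonneg_right _ (sq_nonneg _)
    rw [hC]; linarith

end Vale.Agent.P092.H398.SU
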